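import Crest.Agent.X212.Add46.Lv
import Crest.Agent.X212.Num57.Nb

/-!
# Row 212, ADD-ROOT (helper42): the numbers of a closed piece for an arbitrary frame
-/

set_option autoImplicit false
set_option linter.unusedSectionVars false

open Set Function Module Matrix MeasureTheory
open scoped ContDiff Manifold
open Crest.Agent.R208.F (Ext)
open Crest.Agent.R208.FI

noncomputable section

namespace Crest.Agent.X212.Adc42
open Dr59 Int54 An M G75 Num57 Cyl58
open Line51 (Ln)

theorem root : Add46.RootStmt := by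
  intro κ lam _ _ _ Lm S i W Λ m c π p F β sg l2 h hp hF hP ho hN
  have k : Num57.OK F (Λ.B m c).o := by
    rw [← ho]; exact ok_ov (W.Z c).dim hF (W.ori c)
  have s : SameOn (W.o c) (vol F (Λ.B m c).o) univ := by
    rw [← ho]; exact (same_ov (W.Z c).dim (W.ori c)).symm
  obtain ⟨_, _, _, e, d, L, -⟩ := id hN
  obtain ⟨e1, e2, e3⟩ := nb_eq hN L
  have hc := isCompact_pc W.toCaps h hp
  have L' := lat_pc W.toCaps h L
  obtain ⟨h1, h2⟩ := k.set_es hc L' (s.mono (subset_univ _))
  have l := (Λ.Λ m c).ln_on p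
  have c2 := (l.cl_F isOpen_univ).mono (subset_univ (W.pc c π))
  have eB : ((Λ.Λ m c).ln p).base F.P (Λ.B m c).o = Λ.B m c := by rw [hP]; rfl
  have hB : (Λ.B m c).OK (W.Z c).I := eB ▸ Idg99.lb_ok k l
  have hG : (((Λ.Λ m c).ln p).geo F).OK (Λ.B m c) := eB ▸ l.geo_ok k.isv _
  have i1 := intOn_cpt (F := F) hc (sm_eud (F := F) k.sm)
  have i2 := intOn_cpt (F := F) hc (sm_sgd (F := F) k.sm)
  have n2 : ∫ z in W.pc c π, Num57.sgd F (Λ.B m c).o z ∂F.μ = sg := h2.trans e2.symm
  have n3 : ∫ z in W.pc c π, Num57.lad (Λ.B m c) (((Λ.Λ m c).ln p).geo F) z ∂F.μ = l2 := by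
    have := k.set_lad l (W.ori c) L'.op.measurableSet (s.mono (subset_univ _))
    simp only [integOn_sq hc L' c2 c2, ip_pc h Λ m (L.csU _)] at this
    rw [eB] at this
    exact this.trans e3.symm
  refine ⟨?_, ?_⟩
  · simp only [eud99, sgd99]
    rw [integral_neg, integral_div, integral_const_mul, integral_add i1 i2, h1, e1,
      finrank0 L'.op (isConnected_pc _ h), finrank_pc _ h two_pos]
    push_cast; ring
  · have i3 : IntegrableOn (Num57.lad (Λ.B m c) (((Λ.Λ m c).ln p).geo F)) (W.pc c π) F.μ := by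
      rw [← lad99 hB hG]
      exact intOn_cpt (F := F) hc (Idg99.sm_lad hB hG (W.Z c).dim)
    simp only [lad99 hB hG, sgd99]
    rw [integral_div, integral_sub i3 i2, n2, n3]

end Crest.Agent.X212.Adc42
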